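import Vale.Agent.P032.S5.H923.EndF
import Vale.Agent.P032.S5.H12.Rh

/-!
# P032: the rhombus with faces, palettes

`X` a set of colours, `v` a point with the face `X` (`Fc T v X`), `q` a point with the face `Xᶜ`, both
on `S(z)`; exact arcs of `S(z)` accumulate at `v` and at `q`.

* `HArc.acc` : an exact half branch accumulates.
* `Irr.antiF` : `v` and `q` are not antipodal on `S(z)`.
* `Irr.stripF` : the strip lemma, the second point only carries a face.
* `Irr.uniqueF` : one centre per pair of colours of the face `X`.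
* `Irr.mem_wF` : the colour of `X` missing at `z` is a colour of `w = v + q - z`.
* `Irr.rhF` : `|T w| ≤ 4`: `T w` has exactly two colours in `X` and two in `Xᶜ`.
-/

open Set Filter Topology Metric

noncomputable section

namespace Vale.Agent.P032.Six

variable {k : ℕ} {U : Fin k → Set ℂ} {T : ℂ → Set (Fin k)} {X P Q : Set (Fin k)} {z v q w : ℂ}

/-- an exact half branch of `S(z)` at `q` with palette `P` -/
def HArc (T : ℂ → Set (Fin k)) (z q : ℂ) (P : Set (Fin k)) (o : ℝ) : Prop :=
  (o = 1 ∨ o = -1) ∧ ∃ ε > 0, ∀ t ∈ Ioo 0 ε, T (z + (q - z) * cis (-(o * t))) = P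

theorem HArc.acc {o : ℝ} (hA : HArc T z q P o) (h : Irr U T) (hd : dist q z = 1)
    (hP2 : P.ncard = 2) (hPz : P ⊆ T z) : Acc T z P q := by
  obtain ⟨-, ε, hε, hg⟩ := hA
  intro V hV
  have h1 : ∀ᶠ t : ℝ in 𝓝[>] 0, z + (q - z) * cis (-(o * t)) ∈ V :=
    (tendsto_rot z q o).eventually hV
  have h3 : ∀ᶠ t : ℝ in 𝓝[>] 0, t ∈ Ioo 0 ε := Ioo_mem_nhdsGT hε
  obtain ⟨t, ht, htε⟩ := (h1.and h3).exists
  exact ⟨_, ht, dist_rot hd _, h.pair_open hP2 hPz (hg t htε).subset⟩

/-- **An end with face `X` and an end of the complementary pair are not antipodal.** -/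
theorem Irr.antiF (h : Irr U T) (F : Fc T v X) (hv : dist v z = 1) (hq : dist q z = 1)
    (hsub : T z ⊆ X ∪ Q) (hQ2 : Q.ncard = 2) (hQz : Q ⊆ T z) {o : ℝ} (hA : HArc T z q Q o) :
    v + q ≠ 2 * z := by
  intro hop
  obtain ⟨ho, ε, hε, hg⟩ := hA
  -- the second points
  have hlim : Tendsto (fun t : ℝ => v + (z + (q - z) * cis (-(o * t))) - z) (𝓝[>] 0) (𝓝 z) := by
    have h1 := ((tendsto_rot z q o).const_add v).sub_const z
    have e : v + q - z = z := by linear_combination hop
    rw [e] at h1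
    exact h1
  have h1 := hlim.eventually (h.nhd z)
  have h3 : ∀ᶠ t : ℝ in 𝓝[>] 0, t ∈ Ioo 0 (min ε 1) :=
    Ioo_mem_nhdsGT (lt_min hε one_pos)
  obtain ⟨t, ht, htε⟩ := (h1.and h3).exists
  have htε' : t ∈ Ioo 0 ε := ⟨htε.1, htε.2.trans_le (min_le_left _ _)⟩
  have ht1 : t < 1 := htε.2.trans_le (min_le_right _ _)
  obtain ⟨hc1, hc2⟩ := cis_ne ho htε.1 ht1
  have hqz : q - z ≠ 0 := by
    intro h0
    rw [dist_eq_norm, h0, norm_zero] at hq
    exact zero_ne_one hq
  set c := cis (-(o * t)) with hc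
  set y := z + (q - z) * c with hy
  have hyz : dist y z = 1 := dist_rot hq _
  have hTy : T y = Q := hg t htε'
  have hwv : dist (v + y - z) v = 1 := by
    rw [dist_eq_norm, show v + y - z - v = y - z by ring, ← dist_eq_norm]; exact hyz
  have hyw : dist y (v + y - z) = 1 := by
    rw [dist_comm, dist_eq_norm, show v + y - z - y = v - z by ring, ← dist_eq_norm]; exact hv
  refine F.full _ hwv fun i hi => ?_
  by_contra hiX
  have hiQ : i ∈ Q := (hsub (ht hi)).resolve_left hiX
  have hJ : ∀ᶠ x in 𝓝[sphere z 1] y, i ∈ Pal U x := by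
    filter_upwards [h.pair_open hQ2 hQz hTy.subset] with x hx
    exact h.sub x (by rw [hx]; exact hiQ)
  rcases h.mx.partner_line hyz hJ hyw (h.sub _ hi) with h4 | h4
  · -- `y = q`
    apply hc1
    have : (q - z) * c = (q - z) * 1 := by
      rw [hy] at h4
      linear_combination h4 - hop
    exact mul_left_cancel₀ hqz this
  · apply hc2
    have : (q - z) * c = (q - z) * (-1) := by
      rw [hy] at h4
      linear_combination hop - h4
    exact mul_left_cancel₀ hqz this

/-- **Strip lemma with a face.**  `q` a common neighbour of `u` and `u'`, `X'` a face of `u'`,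
`T q ⊆ P ∪ X'`.  Then `P`-arcs of no other circle `S(p)` accumulate at `u`. -/
theorem Irr.stripF (h : Irr U T) {u u' q p : ℂ} {P X' : Set (Fin k)} (F' : Fc T u' X')
    (hne : u ≠ u') (hq : dist q u = 1) (hq' : dist q u' = 1) (hne2 : u + u' ≠ 2 * q)
    (hsub : T q ⊆ P ∪ X') (hPu : T u ≠ P) (hpq : p ≠ q) (hA : Acc T p P u) : False := by
  obtain ⟨t0, ht0⟩ := exists_cis (u := q - u') (by rw [← dist_eq_norm]; exact hq')
  have hq0 : u' + cis t0 = q := by rw [← ht0]; ring
  have hcr0 : cr (q - u') (q - u) ≠ 0 := cr_ne hq' hq (Ne.symm hne) (by rw [add_comm]; exact hne2)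
  have hcr : cr (cis t0) (u' + cis t0 - u) ≠ 0 := by
    rw [hq0, ← ht0]; exact hcr0
  -- neighbourhood of `q`
  have hc : Continuous fun t : ℝ => u' + cis t := continuous_const.add continuous_cis
  have hN : ∀ᶠ t in 𝓝 t0, T (u' + cis t) ⊆ T q ∧ u' + cis t ≠ p ∧
      (q + p ≠ 2 * u → 2 * dist (u' + cis t) q < dist (q + p) (2 * u)) := by
    refine Filter.Eventually.and ?_ (Filter.Eventually.and ?_ ?_)
    · have h1 : ∀ᶠ x in 𝓝 (u' + cis t0), T x ⊆ T q := by rw [hq0]; exact h.nhd q
      exact hc.continuousAt.eventually h1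
    · exact hc.continuousAt.eventually (isOpen_ne.mem_nhds (show u' + cis t0 ≠ p by
        rw [hq0]; exact hpq.symm))
    · by_cases hqp : q + p = 2 * u
      · exact Eventually.of_forall fun t h1 => absurd hqp h1
      · have h1 : 0 < dist (q + p) (2 * u) := dist_pos.2 hqp
        have h2 : Continuous fun t : ℝ => 2 * dist (u' + cis t) q := by fun_prop
        have h3 : 2 * dist (u' + cis t0) q < dist (q + p) (2 * u) := by
          rw [hq0, dist_self, mul_zero]; exact h1
        filter_upwards [h2.continuousAt.eventually (Iio_mem_nhds h3)] with t ht _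
        exact ht
  obtain ⟨η, hη, hη'⟩ := Metric.eventually_nhds_iff.1 hN
  have hC := crossing (c := u') (q₀ := u) (t0 := t0) (by rw [hq0]; exact hq) hcr hη
  -- closeness
  have hclose : ∀ᶠ w in 𝓝 u, 2 * ‖w - u‖ < |cr (q - u') (q - u)| ∧
      (q + p ≠ 2 * u → 4 * dist w u < dist (q + p) (2 * u)) := by
    refine Filter.Eventually.and ?_ ?_
    · have h2 : Continuous fun w : ℂ => 2 * ‖w - u‖ := by fun_prop
      have h3 : 2 * ‖u - u‖ < |cr (q - u') (q - u)| := by
        rw [sub_self, norm_zero, mul_zero]; exact abs_pos.2 hcr0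
      exact h2.continuousAt.eventually (Iio_mem_nhds h3)
    · by_cases hqp : q + p = 2 * u
      · exact Eventually.of_forall fun t h1 => absurd hqp h1
      · have h1 : 0 < dist (q + p) (2 * u) := dist_pos.2 hqp
        have h2 : Continuous fun w : ℂ => 4 * dist w u := by fun_prop
        have h3 : 4 * dist u u < dist (q + p) (2 * u) := by rw [dist_self, mul_zero]; exact h1
        filter_upwards [h2.continuousAt.eventually (Iio_mem_nhds h3)] with t ht _
        exact ht
  obtain ⟨w, ⟨hwC, hwc⟩, hwp, hwP⟩ := hA _ (hC.and hclose)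
  obtain ⟨t, ht, ht1⟩ := hwC
  obtain ⟨hq'1, hq'2, hq'3⟩ := hη' (y := t) (by rw [Real.dist_eq]; exact ht)
  set q' := u' + cis t with hq'def
  have hTw : T w = P := hwP.self_of_nhdsWithin (show w ∈ sphere p 1 from hwp)
  have hwu : w ≠ u := fun h1 => hPu (by rw [← h1]; exact hTw)
  have hq'u : dist q' u' = 1 := by rw [hq'def]; exact dist_add_cis u' t
  have hno : ∀ i ∈ P, i ∉ Pal U q' := by
    intro i hi hcon
    have hJ : ∀ᶠ x in 𝓝[sphere p 1] w, i ∈ Pal U x := by
      filter_upwards [hwP] with x hx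
      exact h.sub x (by rw [hx]; exact hi)
    rcases h.mx.partner_line hwp hJ (by rw [dist_comm]; exact ht1) hcon with h1 | h1
    · exact hq'2 h1
    · by_cases hqp : q + p = 2 * u
      · -- tangent case
        have hp : p = 2 * u - q := by linear_combination hqp
        have e1 : q' - u' = (q - u') + 2 * (w - u) := by
          rw [hp] at h1; linear_combination h1
        have e2 : w - p = (q - u) + (w - u) := by rw [hp]; ring
        have hsq : ∀ {x y : ℂ}, dist x y = 1 → (x - y).re ^ 2 + (x - y).im ^ 2 = 1 := by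
          intro x y hxy
          have := (dist_eq_one_iff x y).1 hxy
          simp only [Complex.sub_re, Complex.sub_im]
          linarith
        have := tangent_aux (A := q - u') (B := q - u) (δ := w - u)
          (by rw [← e1]; exact hsq hq'u) (by rw [← e2]; exact hsq hwp) (hsq hq') (hsq hq) hwc.1
        exact hwu (sub_eq_zero.1 this)
      · have h2 := hq'3 hqp
        have h3 := hwc.2 hqp
        have h4 : dist (q + p) (2 * u) ≤ dist q' q + 2 * dist w u := by
          have : q + p - 2 * u = -(q' - q) + 2 * (w - u) := by linear_combination h1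
          rw [dist_eq_norm, dist_eq_norm, dist_eq_norm, this]
          refine (norm_add_le _ _).trans ?_
          rw [norm_neg, norm_mul]; simp
        have h5 := dist_nonneg (x := q') (y := q)
        have h6 := dist_nonneg (x := w) (y := u)
        linarith
  refine F'.full q' hq'u fun j hj => ?_
  rcases hsub (hq'1 hj) with h1 | h1
  · exact absurd (h.sub q' hj) (hno j h1)
  · exact h1

/-- **One centre per pair.** -/
theorem Irr.uniqueF (h : Irr U T) {z' : ℂ} (F' : Fc T q Xᶜ) (hne : v ≠ q)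
    (hv : dist v z = 1) (hq : dist q z = 1) (hop : v + q ≠ 2 * z)
    (hsub : T z ⊆ P ∪ Xᶜ) (hPv : T v ≠ P) (hA : Acc T z' P v) : z' = z := by
  by_contra hcon
  exact h.stripF F' hne (by rw [dist_comm]; exact hv) (by rw [dist_comm]; exact hq) hop hsub hPv
    hcon hA

/-- the colour of the face missing at the centre is a colour of the second centre -/
theorem Irr.mem_wF (h : Irr U T) {e : Fin k} (F' : Fc T q Xᶜ) (hne : v ≠ q)
    (hv : dist v z = 1) (hq : dist q z = 1) (hop : v + q ≠ 2 * z)
    (hX : X ⊆ insert e P) (hPv : T v ≠ P) (hA : Acc T z P v) : e ∈ T (v + q - z) := by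
  obtain ⟨g1, g2, g3, g4⟩ := Irr.rh_geo hv hq hne hop
  by_contra hew
  refine h.stripF F' hne g1 g2 g3 ?_ hPv g4 hA
  intro j hj
  by_cases hjX : j ∈ X
  · rcases hX hjX with rfl | h1
    · exact absurd hj hew
    · exact Or.inl h1
  · exact Or.inr hjX

/-- **Rhombus with faces, palette of the second centre.** -/
theorem Irr.rhF (h : Irr U T) (F : Fc T v X) (F' : Fc T q Xᶜ) (hne : v ≠ q)
    (hv : dist v z = 1) (hq : dist q z = 1) (hop : v + q ≠ 2 * z)
    (h4 : (T (v + q - z)).ncard ≤ 4) :
    (T (v + q - z)).ncard = 4 ∧ (T (v + q - z) ∩ X).ncard = 2 ∧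
      (T (v + q - z) ∩ Xᶜ).ncard = 2 := by
  obtain ⟨g1, g2, g3, -⟩ := Irr.rh_geo hv hq hne hop
  obtain ⟨h5, h6⟩ := F.four_le h F' hne g1 g2 g3
  have h7 := Set.ncard_inter_add_ncard_sdiff_eq_ncard (T (v + q - z)) X (Set.toFinite _)
  rw [Set.sdiff_eq] at h7
  omega

end Vale.Agent.P032.Six
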